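import Vale.Agent.P098.Sobolev

/-!
P098, regularity of homogeneous global minimizers: the common notions of the blocks B2 to B6.
-/

open MeasureTheory Filter
open scoped Topology ContDiff NNReal RealInnerProductSpace

namespace Vale.Agent.P098

variable {d : ℕ}

/-- One-homogeneous up to a null set for each factor. -/
def IsHomogeneousAE (u : Euc d → ℝ) : Prop :=
  ∀ r : ℝ, 0 < r → ∀ᵐ x, u (r • x) = r * u x

/-- One-homogeneous. -/
def IsHomogeneous (u : Euc d → ℝ) : Prop :=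
  ∀ r : ℝ, 0 < r → ∀ x, u (r • x) = r * u x

/-- Zero or flat, up to a null set. -/
def IsFlatAE (u : Euc d → ℝ) : Prop :=
  u =ᵐ[volume] 0 ∨ ∃ e : Euc d, ‖e‖ = 1 ∧ u =ᵐ[volume] fun x => max ⟪e, x⟫ 0

/-- Zero or flat. -/
def IsFlat (u : Euc d → ℝ) : Prop :=
  (∀ x, u x = 0) ∨ ∃ e : Euc d, ‖e‖ = 1 ∧ ∀ x, u x = max ⟪e, x⟫ 0

/-- The regular representative of a global minimizer: `L`-Lipschitz, smooth and harmonic where
positive, and growing at least like `c r` from every point of the closure of the positivity set. -/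
structure IsRegMin (L : ℝ≥0) (c : ℝ) (u : Euc d → ℝ) : Prop where
  minim : IsGlobalMinimizer u
  nonneg : ∀ x, 0 ≤ u x
  lip : LipschitzWith L u
  smooth : ContDiffOn ℝ ∞ u (posSet u)
  harmonic : ∀ x ∈ posSet u, ∑ i, pd i (pd i u) x = 0
  nondeg : ∀ x ∈ closure (posSet u), ∀ r : ℝ, 0 < r → ∃ y ∈ Metric.closedBall x r, c * r ≤ u y

/-- The rescaling of `u` by `r` about `x₀`. -/
noncomputable def rescale (u : Euc d → ℝ) (x₀ : Euc d) (r : ℝ) : Euc d → ℝ :=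
  fun x => u (x₀ + r • x) / r

/-- `u` lies between translates of a half-plane solution within `ε r` on the ball of radius `r`. -/
def IsFlatIn (u : Euc d → ℝ) (x₀ e : Euc d) (r ε : ℝ) : Prop :=
  ∀ x ∈ Metric.ball x₀ r,
    max (⟪e, x - x₀⟫ - ε * r) 0 ≤ u x ∧ u x ≤ max (⟪e, x - x₀⟫ + ε * r) 0

/-- Unit normals at the free boundary near `x₀` with an expansion of order `1 + α`. -/
def HasNormals (u : Euc d → ℝ) (x₀ : Euc d) : Prop :=
  ∃ (ρ α C : ℝ) (ν : Euc d → Euc d), 0 < ρ ∧ 0 < α ∧ α < 1 ∧ 0 ≤ C ∧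
    ∀ x ∈ Metric.ball x₀ ρ ∩ frontier (posSet u), ‖ν x‖ = 1 ∧
      ∀ y ∈ Metric.ball x₀ ρ, |u y - max ⟪ν x, y - x⟫ 0| ≤ C * ‖y - x‖ ^ (1 + α)

/-- Near `x₀` the function is smooth up to the free boundary, with gradient of norm one there. -/
def HasExtension (u : Euc d → ℝ) (x₀ : Euc d) : Prop :=
  ∃ (W : Set (Euc d)) (v : Euc d → ℝ), IsOpen W ∧ x₀ ∈ W ∧ ContDiffOn ℝ ∞ v W ∧
    Set.EqOn v u (W ∩ posSet u) ∧ ∀ x ∈ W ∩ frontier (posSet u), ‖fderiv ℝ v x‖ = 1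

/-! ### The blocks -/

/-- B2: representatives, with constants depending only on the dimension. -/
def RepresentativeBlock (d : ℕ) : Prop :=
  ∃ (L : ℝ≥0) (c : ℝ), 0 < c ∧
    ∀ u : Euc d → ℝ, IsGlobalMinimizer u → ∃ w, w =ᵐ[volume] u ∧ IsRegMin L c w

/-- B3a: limits of minimizers are minimizers. -/
def CompactBlock (d : ℕ) : Prop :=
  ∀ (L : ℝ≥0) (c : ℝ), 0 < c → ∀ (v : ℕ → Euc d → ℝ) (w : Euc d → ℝ),
    (∀ k, IsRegMin L c (v k)) → TendstoLocallyUniformly v w atTop → IsGlobalMinimizer w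

/-- B3b: blow-up limits are homogeneous (Weiss). -/
def WeissBlock (d : ℕ) : Prop :=
  ∀ (L : ℝ≥0) (c : ℝ), 0 < c → ∀ (u : Euc d → ℝ) (x₀ : Euc d) (r : ℕ → ℝ) (w : Euc d → ℝ),
    IsRegMin L c u → u x₀ = 0 → (∀ k, 0 < r k) → Tendsto r atTop (𝓝 0) →
      TendstoLocallyUniformly (fun k => rescale u x₀ (r k)) w atTop → IsHomogeneous w

/-- B3c: a minimizer invariant in a direction is one in the orthogonal hyperplane. -/
def SplitBlock (d : ℕ) : Prop :=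
  ∀ (L : ℝ≥0) (c : ℝ), 0 < c → ∀ (u : Euc (d + 1) → ℝ) (e : Euc (d + 1)),
    IsRegMin L c u → ‖e‖ = 1 → (∀ x, ∀ t : ℝ, u (x + t • e) = u x) →
      ∀ ι : Euc d →ₗᵢ[ℝ] Euc (d + 1), (∀ y, ⟪e, ι y⟫ = 0) → IsGlobalMinimizer (u ∘ ι)

/-- B4: flatness gives normals with a rate. -/
def FlatnessBlock (d : ℕ) : Prop :=
  ∀ (L : ℝ≥0) (c : ℝ), 0 < c → ∃ ε : ℝ, 0 < ε ∧
    ∀ (u : Euc d → ℝ) (x₀ e : Euc d) (r : ℝ), IsRegMin L c u → u x₀ = 0 → ‖e‖ = 1 → 0 < r →
      IsFlatIn u x₀ e r ε → HasNormals u x₀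

/-- B5: normals with a rate give smoothness up to the free boundary. -/
def SmoothBlock (d : ℕ) : Prop :=
  ∀ (L : ℝ≥0) (c : ℝ), 0 < c → ∀ (u : Euc d → ℝ) (x₀ : Euc d),
    IsRegMin L c u → u x₀ = 0 → HasNormals u x₀ → HasExtension u x₀

/-- B6: stable cones with smooth cross-section are flat. -/
def ConeBlock (d : ℕ) : Prop :=
  ∀ u : Euc d → ℝ, IsSmoothCone u → IsStable u → IsFlat u

/-- All blocks of regularity in one dimension. -/
structure Blocks (d : ℕ) : Prop where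
  rep : RepresentativeBlock d
  compact : CompactBlock d
  weiss : WeissBlock d
  flatness : FlatnessBlock d
  smooth : SmoothBlock d

end Vale.Agent.P098
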