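import Vale.Agent.P098.Regularity.B2.Chain

/-!
P098: competitors with `v - u` in `H¹₀` of the ball, and equivalence of this notion of global
minimizer with the one by competitors equal outside a compact subset of the ball.
-/

open MeasureTheory Filter Metric
open scoped Topology ContDiff

namespace Vale.Agent.P098

variable {d : ℕ} {f w : Euc d → ℝ} {c : Euc d} {R R' : ℝ}

/-- `w` is in `H¹₀(B)`: a limit in `H¹(B)` of test functions supported in `B`. -/
def IsH10 (B : Set (Euc d)) (w : Euc d → ℝ) : Prop :=
  MemLp w 2 (volume.restrict B) ∧ ∃ g, HasWeakGrad B w g ∧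
    ∃ φ : ℕ → Euc d → ℝ, (∀ n, ContDiff ℝ ∞ (φ n) ∧ HasCompactSupport (φ n) ∧ tsupport (φ n) ⊆ B) ∧
      Tendsto (fun n => ∫ x in B, (φ n x - w x) ^ 2) atTop (𝓝 0) ∧
      ∀ i, Tendsto (fun n => ∫ x in B, (pd i (φ n) x - g i x) ^ 2) atTop (𝓝 0)

/-- A global minimizer as in the problem: nonnegative, in `H¹` of every ball, and of least energy
there among nonnegative `H¹` functions `v` with `v - u` in `H¹₀` of the ball. -/
def IsH10Minimizer (u : Euc d → ℝ) : Prop :=
  (∀ᵐ x, 0 ≤ u x) ∧ ∀ (c : Euc d) (R : ℝ),
    (MemLp u 2 (volume.restrict (ball c R)) ∧ ∃ g, HasWeakGrad (ball c R) u g) ∧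
    ∀ (v : Euc d → ℝ) (g h : Fin d → Euc d → ℝ), HasWeakGrad (ball c R) u g →
      MemLp v 2 (volume.restrict (ball c R)) → HasWeakGrad (ball c R) v h →
      (∀ᵐ x ∂volume.restrict (ball c R), 0 ≤ v x) →
      IsH10 (ball c R) (fun x => v x - u x) →
      sobolevEnergy u g (ball c R) ≤ sobolevEnergy v h (ball c R)

/-! ### Mollification in `L²` -/

lemma sq_moll_le (hf : Integrable f) (hf2 : Integrable fun x => f x ^ 2) (n : ℕ) (x : Euc d) :
    moll n f x ^ 2 ≤ moll n (fun y => f y ^ 2) x := by
  set k := (mollBump n : ContDiffBump (0 : Euc d)).normed volume with hk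
  set m := moll n f x with hm
  have hkc : Continuous k := (mollBump n).continuous_normed
  have hks : HasCompactSupport k := (mollBump n).hasCompactSupport_normed
  have i1 := integrable_kernel_mul hkc hks hf.locallyIntegrable x
  have i2 := integrable_kernel_mul hkc hks hf2.locallyIntegrable x
  have i0 : Integrable fun y => k (x - y) := (mollBump n).integrable_normed.comp_sub_left x
  have h1 : ∫ y, k (x - y) = 1 := by
    rw [integral_sub_left_eq_self k volume x]
    exact (mollBump n).integral_normed
  have h0 : 0 ≤ ∫ y, k (x - y) * (f y - m) ^ 2 := integral_nonneg fun y =>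
    mul_nonneg ((mollBump n).nonneg_normed _) (sq_nonneg _)
  have e : ∫ y, k (x - y) * (f y - m) ^ 2
      = moll n (fun y => f y ^ 2) x - 2 * m * moll n f x + m ^ 2 := by
    rw [show (fun y => k (x - y) * (f y - m) ^ 2) = fun y =>
      (k (x - y) * f y ^ 2 - 2 * m * (k (x - y) * f y)) + m ^ 2 * k (x - y) by funext y; ring,
      integral_add, integral_sub, integral_const_mul, integral_const_mul, h1]
    · simp [moll, avgWith, ← hk]
    · exact i2
    · exact i1.const_mul _
    · exact i2.sub (i1.const_mul _)
    · exact i0.const_mul _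
  rw [e, ← hm] at h0
  nlinarith

/-- Mollifications converge in `L²`. -/
lemma tendsto_integral_sq_moll_sub (hf : Integrable f) (hf2 : Integrable fun x => f x ^ 2) :
    Tendsto (fun n => ∫ x, (moll n f x - f x) ^ 2) atTop (𝓝 0) := by
  have hL := tendsto_integral_abs_moll_sub hf2
  have hE : Tendsto (fun n => ∫ x, min ((moll n f x - f x) ^ 2) (4 * f x ^ 2)) atTop
      (𝓝 (∫ _ : Euc d, (0 : ℝ))) := by
    refine tendsto_integral_of_dominated_convergence (fun x => 4 * f x ^ 2)
      (fun n => ((((integrable_moll hf n).sub hf).aestronglyMeasurable).pow 2).inf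
        (hf2.const_mul 4).aestronglyMeasurable) (hf2.const_mul 4)
      (fun n => Eventually.of_forall fun x => ?_) ?_
    · rw [Real.norm_eq_abs, abs_of_nonneg (le_min (sq_nonneg _) (by positivity))]
      exact min_le_right _ _
    · filter_upwards [ae_tendsto_moll hf.locallyIntegrable] with x hx
      have h := ((hx.sub (tendsto_const_nhds (x := f x))).pow 2).min
        (tendsto_const_nhds (x := 4 * f x ^ 2))
      rwa [sub_self, zero_pow two_ne_zero, min_eq_left (by positivity)] at h
  refine squeeze_zero (fun n => integral_nonneg fun x => sq_nonneg _) (fun n => ?_)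
    (by simpa using hE.add (hL.const_mul 2))
  have i1 : Integrable fun x => min ((moll n f x - f x) ^ 2) (4 * f x ^ 2) := by
    refine (hf2.const_mul 4).mono ((((integrable_moll hf n).sub hf).aestronglyMeasurable.pow 2).inf
      (hf2.const_mul 4).aestronglyMeasurable) (Eventually.of_forall fun x => ?_)
    rw [Real.norm_eq_abs, Real.norm_eq_abs, abs_of_nonneg (le_min (sq_nonneg _) (by positivity)),
      abs_of_nonneg (by positivity)]
    exact min_le_right _ _
  have i2 : Integrable fun x => |moll n (fun y => f y ^ 2) x - f x ^ 2| :=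
    ((integrable_moll hf2 n).sub hf2).abs
  rw [← integral_const_mul, ← integral_add i1 (i2.const_mul 2)]
  refine integral_mono_of_nonneg (Eventually.of_forall fun x => sq_nonneg _)
    (i1.add (i2.const_mul 2)) (Eventually.of_forall fun x => ?_)
  have h1 := sq_moll_le hf hf2 n x
  have h2 := le_abs_self (moll n (fun y => f y ^ 2) x - f x ^ 2)
  have h3 := sq_nonneg (moll n f x + f x)
  have h4 := abs_nonneg (moll n (fun y => f y ^ 2) x - f x ^ 2)
  show (moll n f x - f x) ^ 2 ≤ _ + 2 * |moll n (fun y => f y ^ 2) x - f x ^ 2|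
  rcases le_total ((moll n f x - f x) ^ 2) (4 * f x ^ 2) with a | a
  · rw [min_eq_left a]; linarith
  · rw [min_eq_right a]; nlinarith

/-- Against a square integrable function, convergence in `L²` passes to the integral. -/
lemma tendsto_integral_mul_of_sq {μ : Measure (Euc d)} {h : ℕ → Euc d → ℝ} {η : Euc d → ℝ}
    (hh : ∀ n, MemLp (h n) 2 μ) (hη : MemLp η 2 μ)
    (h0 : Tendsto (fun n => ∫ x, h n x ^ 2 ∂μ) atTop (𝓝 0)) :
    Tendsto (fun n => ∫ x, h n x * η x ∂μ) atTop (𝓝 0) := by
  set b := ∫ x, η x ^ 2 ∂μ with hb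
  have hb0 : 0 ≤ b := integral_nonneg fun x => sq_nonneg _
  rw [Metric.tendsto_atTop]
  intro ε hε
  set t := ε / (b + 1) with ht
  have ht0 : 0 < t := by positivity
  obtain ⟨N, hN⟩ := Metric.tendsto_atTop.1 h0 (ε * t / 2) (by positivity)
  refine ⟨N, fun n hn => ?_⟩
  have hn' := hN n hn
  rw [Real.dist_eq, sub_zero] at hn' ⊢
  have hle : 2 * t * |∫ x, h n x * η x ∂μ| ≤ (∫ x, h n x ^ 2 ∂μ) + t ^ 2 * b := by
    have i1 := (hh n).integrable_sq
    have i2 := hη.integrable_sq.const_mul (t ^ 2)
    rw [hb, ← integral_const_mul, ← integral_add i1 i2]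
    refine le_trans (mul_le_mul_of_nonneg_left (abs_integral_le_integral_abs) (by positivity)) ?_
    rw [← integral_const_mul]
    refine integral_mono_of_nonneg (Eventually.of_forall fun x => by positivity) (i1.add i2)
      (Eventually.of_forall fun x => ?_)
    show 2 * t * |h n x * η x| ≤ h n x ^ 2 + t ^ 2 * η x ^ 2
    rw [abs_mul]
    nlinarith [sq_nonneg (|h n x| - t * |η x|), sq_abs (h n x), sq_abs (η x)]
  have htb : t * b < ε := by
    rw [ht, div_mul_eq_mul_div, div_lt_iff₀ (by positivity)]
    linarith
  have := le_abs_self (∫ x, h n x ^ 2 ∂μ)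
  nlinarith

lemma memLp_test (h : Continuous f) (hs : HasCompactSupport f) (B : Set (Euc d)) :
    MemLp f 2 (volume.restrict B) :=
  h.memLp_of_hasCompactSupport hs

/-- A function of `H¹₀` extends by zero. -/
lemma IsH10.exists_extend (hw : IsH10 (ball c R) w) (hR : R ≤ R') :
    ∃ g, HasWeakGrad (ball c R) w g ∧
      MemLp ((ball c R).indicator w) 2 (volume.restrict (ball c R')) ∧
      HasWeakGrad (ball c R') ((ball c R).indicator w)
        (fun i => (ball c R).indicator (g i)) := by
  obtain ⟨hwL, g, hg, φ, hφ, h1, h2⟩ := hw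
  have hsub : ball c R ⊆ ball c R' := ball_subset_ball hR
  have hres : (volume.restrict (ball c R')).restrict (ball c R) = volume.restrict (ball c R) := by
    rw [Measure.restrict_restrict measurableSet_ball, Set.inter_eq_left.2 hsub]
  have hind : ∀ {F : Euc d → ℝ}, MemLp F 2 (volume.restrict (ball c R)) →
      MemLp ((ball c R).indicator F) 2 (volume.restrict (ball c R')) := fun {F} hF => by
    rw [memLp_indicator_iff_restrict measurableSet_ball, hres]
    exact hF
  refine ⟨g, hg, hind hwL, fun i => hind (hg.1 i), fun i ψ hψ hs _ => ?_⟩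
  have e : ∀ F G : Euc d → ℝ, ∫ x in ball c R', (ball c R).indicator F x * G x
      = ∫ x in ball c R, F x * G x := fun F G => by
    rw [show (fun x => (ball c R).indicator F x * G x) = (ball c R).indicator fun x => F x * G x
      from funext fun x => by by_cases hx : x ∈ ball c R <;> simp [hx],
      setIntegral_indicator measurableSet_ball, Set.inter_eq_right.2 hsub]
  rw [e, e]
  have hp : Continuous (pd i ψ) := continuous_pd (hψ.of_le (by simp)) i
  have mψ := memLp_test hψ.continuous hs (ball c R)
  have mp := memLp_test hp (hasCompactSupport_pd hs i) (ball c R)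
  have mφ : ∀ n, MemLp (φ n) 2 (volume.restrict (ball c R)) := fun n =>
    memLp_test (hφ n).1.continuous (hφ n).2.1 _
  have mφ' : ∀ n, MemLp (pd i (φ n)) 2 (volume.restrict (ball c R)) := fun n =>
    memLp_test (continuous_pd ((hφ n).1.of_le (by simp)) i) (hasCompactSupport_pd (hφ n).2.1 i) _
  have hid : ∀ n, ∫ x in ball c R, φ n x * pd i ψ x
      = -∫ x in ball c R, pd i (φ n) x * ψ x := fun n => by
    obtain ⟨A, hA⟩ := lipschitzWith_of_test (hφ n).1 (hφ n).2.1
    obtain ⟨D, hD⟩ := lipschitzWith_of_test hψ hs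
    have hz : ∀ x, x ∉ ball c R → φ n x = 0 ∧ pd i (φ n) x = 0 := fun x hx => by
      have h := notMem_tsupport_iff_eventuallyEq.1 fun h => hx ((hφ n).2.2 h)
      exact ⟨h.eq_of_nhds, pd_eq_zero_of_eventually h i⟩
    rw [setIntegral_eq_integral_of_forall_compl_eq_zero fun x hx => by simp [(hz x hx).1],
      setIntegral_eq_integral_of_forall_compl_eq_zero fun x hx => by simp [(hz x hx).2]]
    exact integral_mul_pd hA hD hs i
  have L1 := tendsto_integral_mul_of_sq (fun n => (mφ n).sub hwL) mp h1
  have L2 := tendsto_integral_mul_of_sq (fun n => (mφ' n).sub (hg.1 i)) mψ (h2 i)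
  have hsplit : ∀ {F G H : Euc d → ℝ}, MemLp F 2 (volume.restrict (ball c R)) →
      MemLp G 2 (volume.restrict (ball c R)) → MemLp H 2 (volume.restrict (ball c R)) →
      ∫ x in ball c R, (F - G) x * H x
        = (∫ x in ball c R, F x * H x) - ∫ x in ball c R, G x * H x := fun {F G H} hF hG hH => by
    rw [← integral_sub (f := fun x => F x * H x) (g := fun x => G x * H x)
      (hF.integrable_mul hH) (hG.integrable_mul hH)]
    exact integral_congr_ae (Eventually.of_forall fun x => by simp [sub_mul])
  simp only [hsplit (mφ _) hwL mp, hid] at L1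
  simp only [hsplit (mφ' _) (hg.1 i) mψ] at L2
  have h0 := (L1.add L2).congr (f₂ := fun _ => -(∫ x in ball c R, w x * pd i ψ x)
      - ∫ x in ball c R, g i x * ψ x) fun n => by ring
  have := tendsto_nhds_unique tendsto_const_nhds h0
  linarith

/-- A weakly differentiable function vanishing near the boundary is in `H¹₀`. -/
lemma isH10_of_eq_zero {r : ℝ} (hr : r < R) {g : Fin d → Euc d → ℝ}
    (hw : MemLp w 2 (volume.restrict (ball c R))) (hg : HasWeakGrad (ball c R) w g)
    (h0 : ∀ᵐ x ∂volume.restrict (ball c R), x ∉ closedBall c r → w x = 0) :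
    IsH10 (ball c R) w := by
  rcases le_or_gt R 0 with hR0 | hR0
  · refine ⟨hw, g, hg, fun _ => 0, fun _ => ⟨contDiff_const, HasCompactSupport.zero, by simp⟩,
      ?_, fun i => ?_⟩ <;> simp [ball_eq_empty.2 hR0]
  set s := max r 0 with hs_def
  have hsR : s < R := max_lt hr hR0
  set B := ball c R
  set K := closedBall c s
  have hKB : K ⊆ B := closedBall_subset_ball hsR
  have h0' : ∀ᵐ x ∂volume.restrict B, x ∉ K → w x = 0 := by
    filter_upwards [h0] with x hx hxK
    exact hx fun h => hxK (closedBall_subset_closedBall (le_max_left r 0) h)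
  have hopen : IsOpen (B \ K) := isOpen_ball.sdiff isClosed_closedBall
  have hgz : ∀ i, ∀ᵐ x ∂volume.restrict B, x ∉ K → g i x = 0 := fun i => by
    have hz : HasWeakGrad (B \ K) (0 : Euc d → ℝ) (fun _ => 0) :=
      ⟨fun _ => MemLp.zero, fun _ _ _ _ _ => by simp⟩
    have hwz : w =ᵐ[volume.restrict (B \ K)] 0 := by
      refine (ae_restrict_iff' hopen.measurableSet).2 ?_
      filter_upwards [(ae_restrict_iff' measurableSet_ball).1 h0'] with x hx hxm
      exact hx hxm.1 hxm.2
    have := (hg.mono Set.sdiff_subset).unique hopen hz hwz i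
    refine (ae_restrict_iff' measurableSet_ball).2 ?_
    filter_upwards [(ae_restrict_iff' hopen.measurableSet).1 this] with x hx hxB hxK
    exact hx ⟨hxB, hxK⟩
  have hfin := isFiniteMeasure_restrict (isBounded_ball : Bornology.IsBounded B)
  have hKres : (volume.restrict B).restrict K = volume.restrict K := by
    rw [Measure.restrict_restrict measurableSet_closedBall, Set.inter_eq_left.2 hKB]
  have hint : ∀ {F : Euc d → ℝ}, MemLp F 2 (volume.restrict B) →
      Integrable (K.indicator F) ∧ Integrable fun x => K.indicator F x ^ 2 := fun {F} hF => by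
    have hF' := hF.mono_measure (Measure.restrict_mono hKB le_rfl)
    refine ⟨(integrable_indicator_iff measurableSet_closedBall).2
      (IntegrableOn.mono_set (hF.integrable one_le_two) hKB), ?_⟩
    rw [show (fun x => K.indicator F x ^ 2) = K.indicator fun x => F x ^ 2 from
      funext fun x => by by_cases hx : x ∈ K <;> simp [hx]]
    exact (integrable_indicator_iff measurableSet_closedBall).2 hF'.integrable_sq
  obtain ⟨hi, hi2⟩ := hint hw
  set w₀ := K.indicator w with hw₀
  set χ : ContDiffBump c :=
    ⟨(2 * s + R) / 3, (s + 2 * R) / 3, by linarith [le_max_right r 0], by linarith⟩ with hχ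
  have hgrad : ∀ (n : ℕ) (i : Fin d) (x : Euc d),
      pd i (moll n w₀) x = moll n (K.indicator (g i)) x := by
    intro n i x
    set k := (mollBump n : ContDiffBump (0 : Euc d)).normed volume with hk
    have hkc : ContDiff ℝ ∞ k := (mollBump n).contDiff_normed
    set ψ : Euc d → ℝ := fun y => χ y * k (x - y) with hψ
    have hψc : ContDiff ℝ ∞ ψ := χ.contDiff.mul (hkc.comp (contDiff_const.sub contDiff_id))
    have hψs : tsupport ψ ⊆ B := by
      refine (tsupport_mul_subset_left).trans ?_
      rw [χ.tsupport_eq]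
      exact closedBall_subset_ball (show (s + 2 * R) / 3 < R by linarith)
    have h := hg.2 i ψ hψc (χ.hasCompactSupport.mul_right) hψs
    have hone : ∀ y ∈ K, χ y = 1 ∧ pd i ψ y = -pd i k (x - y) := fun y hy => by
      have hy' : y ∈ ball c ((2 * s + R) / 3) :=
        closedBall_subset_ball (by linarith) hy
      refine ⟨χ.one_of_mem_closedBall (ball_subset_closedBall hy'), ?_⟩
      have hev : ψ =ᶠ[𝓝 y] fun z => k (x - z) := by
        filter_upwards [isOpen_ball.mem_nhds hy'] with z hz
        simp [hψ, χ.one_of_mem_closedBall (ball_subset_closedBall hz)]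
      rw [pd, hev.fderiv_eq]
      exact pd_comp_sub (hkc.of_le (by simp)) i x y
    rw [moll, pd_avgWith hkc (mollBump n).hasCompactSupport_normed hi.locallyIntegrable]
    simp only [avgWith, moll, ← hk]
    have e1 : ∫ y, pd i k (x - y) * w₀ y = -∫ y in B, w y * pd i ψ y := by
      rw [← integral_neg, ← integral_indicator measurableSet_ball]
      refine integral_congr_ae ?_
      filter_upwards [(ae_restrict_iff' measurableSet_ball).1 h0'] with y hy
      by_cases hyK : y ∈ K
      · simp [hw₀, hyK, (show y ∈ ball c R from hKB hyK), (hone y hyK).2, B, mul_comm]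
      · by_cases hyB : y ∈ ball c R
        · simp [hw₀, hyK, hyB, hy hyB hyK]
        · simp [hw₀, hyK, hyB]
    have e2 : ∫ y, k (x - y) * K.indicator (g i) y = ∫ y in B, g i y * ψ y := by
      rw [← integral_indicator measurableSet_ball]
      refine integral_congr_ae ?_
      filter_upwards [(ae_restrict_iff' measurableSet_ball).1 (hgz i)] with y hy
      by_cases hyK : y ∈ K
      · simp [hyK, (show y ∈ ball c R from hKB hyK), hψ, (hone y hyK).1, mul_comm]
      · by_cases hyB : y ∈ ball c R
        · simp [hyK, hyB, hy hyB hyK]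
        · simp [hyK, hyB]
    rw [e1, e2, h, neg_neg]
  obtain ⟨N, hN⟩ : ∃ N : ℕ, ∀ n, N ≤ n → s + 1 / ((n : ℝ) + 1) < R := by
    refine eventually_atTop.1 ?_
    filter_upwards [(tendsto_one_div_add_atTop_nhds_zero_nat (𝕜 := ℝ)).eventually
      (gt_mem_nhds (sub_pos.2 hsR))] with n hn
    linarith
  have hsupp : ∀ n, tsupport (moll n w₀) ⊆ closedBall c (s + 1 / ((n : ℝ) + 1)) := fun n => by
    refine closure_minimal (fun x hx => ?_) isClosed_closedBall
    rw [Function.mem_support] at hx
    contrapose! hx
    refine integral_eq_zero_of_ae (Eventually.of_forall fun y => ?_)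
    show _ * w₀ y = 0
    by_cases hyK : y ∈ K
    · rw [mul_eq_zero]
      refine Or.inl (Function.notMem_support.1 fun hsy => ?_)
      rw [(mollBump n : ContDiffBump (0 : Euc d)).support_normed_eq (μ := volume), mem_ball,
        dist_zero_right, ← dist_eq_norm] at hsy
      exact hx (mem_closedBall.2 ((dist_triangle x y c).trans
        (by linarith [mem_closedBall.1 hyK, show dist x y < 1 / ((n : ℝ) + 1) from hsy])))
    · simp [hw₀, hyK]
  have conv : ∀ {F : Euc d → ℝ}, MemLp F 2 (volume.restrict B) →
      (∀ᵐ x ∂volume.restrict B, x ∉ K → F x = 0) →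
      Tendsto (fun n => ∫ x in B, (moll (n + N) (K.indicator F) x - F x) ^ 2) atTop (𝓝 0) := by
    intro F hF hF0
    obtain ⟨a, a2⟩ := hint hF
    refine squeeze_zero (fun n => integral_nonneg fun x => sq_nonneg _) (fun n => ?_)
      ((tendsto_integral_sq_moll_sub a a2).comp (tendsto_add_atTop_nat N))
    have e : ∫ x in B, (moll (n + N) (K.indicator F) x - F x) ^ 2
        = ∫ x in B, (moll (n + N) (K.indicator F) x - K.indicator F x) ^ 2 := by
      refine integral_congr_ae ?_
      filter_upwards [hF0] with x hx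
      by_cases hxK : x ∈ K
      · rw [Set.indicator_of_mem hxK]
      · rw [Set.indicator_of_notMem hxK, hx hxK]
    rw [e]
    refine setIntegral_le_integral ?_ (Eventually.of_forall fun x => sq_nonneg _)
    have hm : MemLp (moll (n + N) (K.indicator F)) 2 :=
      (contDiff_avgWith (mollBump _).contDiff_normed (mollBump _).hasCompactSupport_normed
        a.locallyIntegrable).continuous.memLp_of_hasCompactSupport (by
          show HasCompactSupport (avgWith _ _)
          rw [avgWith_eq_convolution]
          exact (mollBump _).hasCompactSupport_normed.convolution _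
            (IsCompact.of_isClosed_subset (isCompact_closedBall c s) (isClosed_tsupport _)
              (closure_minimal Set.support_indicator_subset isClosed_closedBall)))
    exact (hm.sub ((memLp_two_iff_integrable_sq a.aestronglyMeasurable).2 a2)).integrable_sq
  refine ⟨hw, g, hg, fun n => moll (n + N) w₀, fun n => ⟨?_, ?_, ?_⟩, conv hw h0', fun i => ?_⟩
  · exact contDiff_avgWith (mollBump _).contDiff_normed (mollBump _).hasCompactSupport_normed
      hi.locallyIntegrable
  · exact IsCompact.of_isClosed_subset (isCompact_closedBall _ _) (isClosed_tsupport _) (hsupp _)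
  · exact (hsupp _).trans (closedBall_subset_ball (by
      have := hN (n + N) (Nat.le_add_left _ _)
      push_cast at this ⊢
      exact this))
  · simpa only [hgrad] using conv (hg.1 i) (hgz i)

/-! ### The two notions of global minimizer agree -/

lemma sobolevEnergy_congr_restrict {B : Set (Euc d)} {f' : Euc d → ℝ}
    {G G' : Fin d → Euc d → ℝ} (hf : f =ᵐ[volume.restrict B] f')
    (hG : ∀ i, G i =ᵐ[volume.restrict B] G' i) :
    sobolevEnergy f G B = sobolevEnergy f' G' B := by
  have h1 : ∫⁻ x in B, ENNReal.ofReal (∑ i, G i x ^ 2)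
      = ∫⁻ x in B, ENNReal.ofReal (∑ i, G' i x ^ 2) := lintegral_congr_ae (by
    filter_upwards [eventually_all.2 hG] with x hx
    simp only [hx])
  have h2 : volume.restrict B (posSet f) = volume.restrict B (posSet f') := measure_congr (by
    filter_upwards [hf] with x hx
    exact propext (show (0 < f x) ↔ (0 < f' x) by rw [hx]))
  simp only [sobolevEnergy, h1, h2]

lemma sobolevEnergy_union {A B : Set (Euc d)} (G : Fin d → Euc d → ℝ) (hd : Disjoint A B)
    (hB : MeasurableSet B) :
    sobolevEnergy f G (A ∪ B) = sobolevEnergy f G A + sobolevEnergy f G B := by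
  simp only [sobolevEnergy, Measure.restrict_union hd hB, lintegral_add_measure,
    Measure.add_apply]
  abel

theorem IsGlobalMinimizer.isH10Minimizer {u : Euc d → ℝ} (hu : IsGlobalMinimizer u) :
    IsH10Minimizer u := by
  refine ⟨hu.1, fun c R => ⟨(hu.2 c R).1, fun v g h hg hv hh hn hw => ?_⟩⟩
  set R' := max R 0 + 1
  have hRR : R < R' := (le_max_left R 0).trans_lt (lt_add_one _)
  set B := ball c R
  set B' := ball c R'
  have hsub : B ⊆ B' := ball_subset_ball hRR.le
  obtain ⟨gw, hgw, hwL, hwG⟩ := hw.exists_extend hRR.le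
  obtain ⟨⟨huL, g', hg'⟩, hmin⟩ := hu.2 c R'
  set v' : Euc d → ℝ := fun x => u x + B.indicator (fun y => v y - u y) x with hv'
  set h' : Fin d → Euc d → ℝ := fun i x => g' i x + B.indicator (gw i) x
  have hh' : HasWeakGrad B' v' h' := hg'.add hwG isBounded_ball huL hwL
  have hvB : ∀ x ∈ B, v' x = v x := fun x hx => by simp [hv', hx]
  have hvO : ∀ x, x ∉ B → v' x = u x := fun x hx => by simp [hv', hx]
  have hn' : ∀ᵐ x ∂volume.restrict B', 0 ≤ v' x := by
    filter_upwards [ae_restrict_of_ae hu.1,
      ae_restrict_of_ae ((ae_restrict_iff' measurableSet_ball).1 hn)] with x hx hxv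
    by_cases hxB : x ∈ B
    · rw [hvB x hxB]; exact hxv hxB
    · rw [hvO x hxB]; exact hx
  have key := hmin v' g' h' hg' (huL.add hwL) hh' hn' ⟨closedBall c R, isCompact_closedBall c R,
    closedBall_subset_ball hRR, Eventually.of_forall fun x hx =>
      hvO x fun h => hx (ball_subset_closedBall h)⟩
  have hU : B' = B ∪ B' \ B := (Set.union_sdiff_cancel hsub).symm
  have hmeas : MeasurableSet (B' \ B) := MeasurableSet.diff measurableSet_ball measurableSet_ball
  rw [show ball c R' = B ∪ B' \ B from hU, sobolevEnergy_union _ Set.disjoint_sdiff_right hmeas,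
    sobolevEnergy_union _ Set.disjoint_sdiff_right hmeas] at key
  have eout : sobolevEnergy v' h' (B' \ B) = sobolevEnergy u g' (B' \ B) :=
    sobolevEnergy_congr_restrict ((ae_restrict_iff' hmeas).2 (Eventually.of_forall fun x hx =>
      hvO x hx.2)) fun i => (ae_restrict_iff' hmeas).2 (Eventually.of_forall fun x hx => by
        simp [h', hx.2])
  have hfin : sobolevEnergy u g' (B' \ B) ≠ ⊤ := by
    rw [sobolevEnergy_eq_ofReal (isBounded_ball.subset Set.sdiff_subset)
      fun i => (hg'.1 i).mono_measure (Measure.restrict_mono Set.sdiff_subset le_rfl)]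
    exact ENNReal.ofReal_ne_top
  rw [eout, ENNReal.add_le_add_iff_right hfin] at key
  have hvv : v' =ᵐ[volume.restrict B] v := (ae_restrict_iff' measurableSet_ball).2
    (Eventually.of_forall hvB)
  rwa [sobolevEnergy_congr_restrict EventuallyEq.rfl
      ((hg'.mono hsub).unique isOpen_ball hg EventuallyEq.rfl),
    sobolevEnergy_congr_restrict hvv ((hh'.mono hsub).unique isOpen_ball hh hvv)] at key

theorem IsH10Minimizer.isGlobalMinimizer {u : Euc d → ℝ} (hu : IsH10Minimizer u) :
    IsGlobalMinimizer u := by
  refine ⟨hu.1, fun c R => ⟨(hu.2 c R).1, fun v g h hg hv hh hn hK => ?_⟩⟩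
  obtain ⟨huL, -⟩ := (hu.2 c R).1
  obtain ⟨K, hKc, hKB, hKv⟩ := hK
  obtain ⟨r, hr, hKr⟩ : ∃ r, r < R ∧ K ⊆ ball c r := exists_lt_subset_ball hKc.isClosed hKB
  have hneg : HasWeakGrad (ball c R) (fun x => -u x) fun i x => -g i x :=
    ⟨fun i => (hg.1 i).neg, fun i φ a b e => by
      simp only [neg_mul, integral_neg, hg.2 i φ a b e]⟩
  have hw := hh.add hneg isBounded_ball hv huL.neg
  refine (hu.2 c R).2 v g h hg hv hh hn ?_
  refine isH10_of_eq_zero hr (hv.sub huL) (g := fun i x => h i x + -g i x)
    (by simpa [sub_eq_add_neg] using hw) ?_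
  filter_upwards [hKv] with x hx hxr
  rw [hx fun h => hxr (ball_subset_closedBall (hKr h)), sub_self]

/-- Minimality among competitors with `v - u` in `H¹₀` is the same as minimality among competitors
equal to `u` outside a compact subset of the ball. -/
theorem isGlobalMinimizer_iff_H10 {u : Euc d → ℝ} :
    IsGlobalMinimizer u ↔ IsH10Minimizer u :=
  ⟨IsGlobalMinimizer.isH10Minimizer, IsH10Minimizer.isGlobalMinimizer⟩

end Vale.Agent.P098
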